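import Vale.Agent.P235.Forest
import Vale.Agent.P235.Minor

/-!
The minor-closed classes of bounded block depth satisfy the GNRS bound.
-/

namespace Vale.Agent.Results.P235.BlockDepthL1

open Finset Vale.Agent.P235

/-- Bounded block depth gives bounded `ℓ¹` distortion, passes to minors, bounds the clique number,
and contains forests plus `k` vertices; adding vertices costs `O(log k)`. -/
theorem result (V : Type) [Fintype V] [DecidableEq V] (G : SimpleGraph V) (k t : ℕ) :
    (G.Connected → ∀ ℓ : Sym2 V → ℝ, (∀ e ∈ G.edgeSet, 0 < ℓ e) →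
      (BlockDepth G k t univ →
        ∃ (N : ℕ) (f : V → Fin N → ℝ), ∀ u v, pathDist G ℓ u v ≤ ∑ i, |f u i - f v i| ∧
          ∑ i, |f u i - f v i| ≤
            (((Nat.log 2 k : ℝ) + 3) * 440 ^ t) * pathDist G ℓ u v) ∧
      (∀ (X : Finset V) (C : ℝ), X.Nonempty → 0 ≤ C → Embeds G ℓ C (univ \ X) →
        ∃ (N : ℕ) (f : V → Fin N → ℝ), ∀ u v, pathDist G ℓ u v ≤ ∑ i, |f u i - f v i| ∧
          ∑ i, |f u i - f v i| ≤
            (32 * (Nat.log 2 X.card : ℝ) + 440 * C + 944) * pathDist G ℓ u v)) ∧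
    (∀ X : Finset V, X.card ≤ k → 1 ≤ k →
      (G.induce ((univ \ X : Finset V) : Set V)).IsAcyclic → BlockDepth G k 2 univ) ∧
    (BlockDepth G k t univ → ∀ (W : Type) [Fintype W] [DecidableEq W] (H : SimpleGraph W),
      IsMinorOf H G → BlockDepth H k t univ) ∧
    (BlockDepth G k t univ → ∀ Q : Finset V, G.IsClique (Q : Set V) → Q.card ≤ k * t + 1) := by
  refine ⟨fun hG ℓ hℓ => ⟨fun h => ?_, fun X C hX hC hU => ?_⟩, fun X hX hk hac => ?_,
    fun h W _ _ H hH => h.minor hH, fun h Q hQ => h.clique_le Q hQ (Finset.subset_univ Q)⟩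
  · refine Embeds.distortion hG (by positivity) ((h.embeds hG hℓ).mono hℓ ?_)
    have := depthBound_le k t
    have : (0:ℝ) ≤ Nat.log 2 k := Nat.cast_nonneg _
    linarith
  · refine Embeds.distortion hG (by positivity) ?_
    rw [← Finset.sdiff_union_of_subset (Finset.subset_univ X)]
    exact exists_apex_embedding G hG hℓ X _ hX hC hU
  · rw [← Finset.sdiff_union_of_subset (Finset.subset_univ X)]
    exact .apex hX (BlockDepth.forest hk hac)

end Vale.Agent.Results.P235.BlockDepthL1
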